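import Vale.Agent.P181.Transfer
import Vale.Agent.P181.Sym
import Vale.Agent.P181.Induct

open Vale.Agent.P181

namespace Vale.Agent.Results.P181.QuadraticBound

theorem result (a b : ℕ) (hb : (a - 1) ^ 2 ≤ b)
    (V : Type) [AddCommGroup V] [Module ℂ V] [FiniteDimensional ℂ V] :
    ∃ Ψ : SymSym a b V →ₗ[ℂ] SymSym b a V,
      (∀ v : Fin a → Fin b → V,
        Ψ (prd2 v) = ∑ σ : Fin a → Equiv.Perm (Fin b), prd2 fun j i => v i (σ i j)) ∧
      Function.Injective Ψ ∧
      ∀ g : V ≃ₗ[ℂ] V, ∃ S : SymSym a b V →ₗ[ℂ] SymSym a b V,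
        ∃ T : SymSym b a V →ₗ[ℂ] SymSym b a V,
          (∀ v : Fin a → Fin b → V, S (prd2 v) = prd2 fun i l => g (v i l)) ∧
          (∀ w : Fin b → Fin a → V, T (prd2 w) = prd2 fun j i => g (w j i)) ∧
          ∀ x, Ψ (S x) = T (Ψ x) := by
  let e := Module.finBasis ℂ V
  refine ⟨psi e, fun v => psi_pure2 e v, psi_injective e (Rk_le_A1_pow_sq a b hb), fun g =>
    ⟨symMap a (symMap b g.toLinearMap), symMap b (symMap a g.toLinearMap), ?_, ?_, ?_⟩⟩
  · intro v
    change symMap a (symMap b g.toLinearMap) (pure2 v) = pure2 _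
    simp [pure2, symMap_tprod]
  · intro v
    change symMap b (symMap a g.toLinearMap) (pure2 v) = pure2 _
    simp [pure2, symMap_tprod]
  · intro x
    have h : ∀ {p q : ℕ} (w : Fin p → Fin q → V),
        symMap p (symMap q g.toLinearMap) (pure2 w) = pure2 (fun i l => g (w i l)) := by
      intro p q w
      simp [pure2, symMap_tprod]
    have key : psi e ∘ₗ symMap a (symMap b g.toLinearMap)
        = symMap b (symMap a g.toLinearMap) ∘ₗ psi e := by
      refine LinearMap.ext_on span_pure2 ?_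
      rintro _ ⟨v, rfl⟩
      simp only [LinearMap.comp_apply, h, psi_pure2, map_sum]
    exact LinearMap.congr_fun key x

end Vale.Agent.Results.P181.QuadraticBound
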